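import Vale.Agent.P305.MM.Defs

/-! Filling an array with a square matrix in row-major order; zero-padded products. -/

set_option autoImplicit false

namespace Vale.Agent.P305.MM.H559

open Finset Vale.Agent.P305.MM

theorem div_mod_of {m a b : ℕ} (hb : b < m) : (a * m + b) / m = a ∧ (a * m + b) % m = b := by
  have hm : 0 < m := by omega
  constructor
  · rw [Nat.add_comm, Nat.add_mul_div_right _ _ hm, Nat.div_eq_of_lt hb, Nat.zero_add]
  · rw [Nat.add_comm, Nat.add_mul_mod_self_right, Nat.mod_eq_of_lt hb]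

theorem lt_sq_of {m a b : ℕ} (ha : a < m) (hb : b < m) : a * m + b < m * m := by
  calc a * m + b < a * m + m := by omega
    _ = (a + 1) * m := by ring
    _ ≤ m * m := Nat.mul_le_mul_right _ ha

theorem eq_div_mod {m x : ℕ} : x = (x / m) * m + x % m := by
  rw [Nat.mul_comm]; exact (Nat.div_add_mod x m).symm

theorem div_lt_of {m x : ℕ} (h : x < m * m) : x / m < m ∧ x % m < m := by
  have hm : 0 < m := by
    rcases Nat.eq_zero_or_pos m with h0 | h0
    · subst h0; omega
    · exact h0
  exact ⟨Nat.div_lt_of_lt_mul h, Nat.mod_lt _ hm⟩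

/-- Fill array `j` (row major, `m` rows and columns) with the matrix `A`; index register `40`. -/
theorem fillM_tri {env : Env} {cap p : ℕ} [Fact p.Prime] {s : St} {mE : E} {j : ℕ} {e : E} {m : ℕ}
    (A : ℕ → ℕ → ZMod p) (hm : mE.eval env s = m) (he : e.NoArr j) (hcap : m * m ≤ cap)
    (hp : p ≤ cap) (hv : ∀ a < m, ∀ b < m, e.eval env (s.set 40 (a * m + b)) = (A a b).val) :
    Tri env cap (fill 40 (.mul mE mE) j e) s (2 * (m * m) + 1) (fun s' =>
      (∀ x, x ≠ 40 → s'.r x = s.r x) ∧ (∀ j', j' ≠ j → s'.a j' = s.a j') ∧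
      Holds (s'.a j) m A ∧ s'.pos = s.pos) := by
  have hlen : (E.mul mE mE).eval env s = m * m := by simp only [E.eval, hm]
  have hpp : 0 < p := (Fact.out : p.Prime).pos
  have : NeZero p := ⟨hpp.ne'⟩
  have hv' : ∀ x < m * m, e.eval env (s.set 40 x) = (A (x / m) (x % m)).val := by
    intro x hx
    have h := div_lt_of hx
    have h2 := hv _ h.1 _ h.2
    rwa [← eq_div_mod] at h2
  have h := fill_tri (env := env) (cap := cap) (i := 40) (len := .mul mE mE) (j := j) (e := e)
    (s := s) he (by rw [hlen]; exact hcap) (by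
      rw [hlen]
      intro x hx
      rw [hv' x hx]
      exact ((ZMod.val_lt _).trans_le hp).le)
  rw [hlen] at h
  refine h.mono le_rfl ?_
  rintro s' ⟨h1, h2, h3, h4⟩
  refine ⟨h1, h2, ?_, h4⟩
  intro a ha b hb
  rw [h3, if_pos (lt_sq_of ha hb)]
  exact hv a ha b hb

/-- Zero-padded matrix: `ra` rows and `ca` columns are kept. -/
def pad {F : Type} [Zero F] (ra ca : ℕ) (A : ℕ → ℕ → F) (a b : ℕ) : F :=
  if a < ra ∧ b < ca then A a b else 0

theorem pad_of_lt {F : Type} [Zero F] {ra ca : ℕ} {A : ℕ → ℕ → F} {a b : ℕ} (ha : a < ra)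
    (hb : b < ca) : pad ra ca A a b = A a b := if_pos ⟨ha, hb⟩

/-- Product of padded matrices. -/
theorem mulN_pad {F : Type} [Field F] {m ra k cb : ℕ} (hk : k ≤ m) (A B : ℕ → ℕ → F) :
    mulN m (pad ra k A) (pad k cb B) = pad ra cb (mulN k A B) := by
  funext a b
  unfold mulN pad
  by_cases h : a < ra ∧ b < cb
  · rw [if_pos h, ← Finset.sum_subset (Finset.range_subset_range.mpr hk)
      (f := fun x => (if a < ra ∧ x < k then A a x else 0) * (if x < k ∧ b < cb then B x b else 0))]
    · apply Finset.sum_congr rfl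
      intro x hx
      rw [Finset.mem_range] at hx
      rw [if_pos ⟨h.1, hx⟩, if_pos ⟨hx, h.2⟩]
    · intro x _ hx
      rw [Finset.mem_range, not_lt] at hx
      rw [if_neg (by omega), zero_mul]
  · rw [if_neg h]
    apply Finset.sum_eq_zero
    intro x _
    by_cases h1 : a < ra
    · rw [if_neg (c := x < k ∧ b < cb) (by tauto), mul_zero]
    · rw [if_neg (c := a < ra ∧ x < k) (by tauto), zero_mul]

end Vale.Agent.P305.MM.H559
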