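import Vale.Agent.P305.MM.H559.FillM

/-! Level 0 of the recursive procedure. -/

set_option autoImplicit false

namespace Vale.Agent.P305.MM.H559

open Finset Vale.Agent.P305.MM

/-- Loop that changes the entries of array `j` one after another; the new value of entry `k` may
depend on the old one. -/
theorem mapIn_tri {env : Env} {cap : ℕ} {i : ℕ} {len : E} {j : ℕ} {e : E} {s : St} (v : ℕ → ℕ)
    (hlen : len.eval env s ≤ cap)
    (hv : ∀ k < len.eval env s, ∀ s' : St, s'.r i = k → (∀ x, x ≠ i → s'.r x = s.r x) →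
      (∀ j', j' ≠ j → s'.a j' = s.a j') → s'.a j k = s.a j k → e.eval env s' = v k)
    (hc : ∀ k < len.eval env s, v k ≤ cap) :
    Tri env cap (.for_ i len (.sto j (.reg i) e)) s (2 * len.eval env s + 1) (fun s' =>
      (∀ x, x ≠ i → s'.r x = s.r x) ∧ (∀ j', j' ≠ j → s'.a j' = s.a j') ∧
      (∀ x, s'.a j x = if x < len.eval env s then v x else s.a j x) ∧
      s'.pos = s.pos) := by
  have h := Tri.for_ (env := env) (cap := cap) (i := i) (e := len) (p := .sto j (.reg i) e) (s := s)
    (T := 1) (fun k s' => (∀ x, x ≠ i → s'.r x = s.r x) ∧ (∀ j', j' ≠ j → s'.a j' = s.a j') ∧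
      (∀ x, s'.a j x = if x < k then v x else s.a j x) ∧ s'.pos = s.pos)
    (Q := fun s' =>
      (∀ x, x ≠ i → s'.r x = s.r x) ∧ (∀ j', j' ≠ j → s'.a j' = s.a j') ∧
      (∀ x, s'.a j x = if x < len.eval env s then v x else s.a j x) ∧
      s'.pos = s.pos)
    hlen ⟨fun _ _ => rfl, fun _ _ => rfl, fun x => by simp, rfl⟩ ?_ (fun s' h => h)
  · refine h.mono (by omega) (fun _ h => h)
  · intro k hk s' ⟨h1, h2, h3, h4⟩
    have hev : e.eval env (s'.set i k) = v k := by
      apply hv k hk
      · simp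
      · intro x hx
        simp only [St.set_r, Function.update_of_ne hx, h1 x hx]
      · intro j' hj'
        simp only [St.set_a, h2 j' hj']
      · simp only [St.set_a, h3 k, if_neg (lt_irrefl k)]
    apply Tri.sto
    · rw [hev]; exact hc k hk
    · simp only [E.eval, hev]
      refine ⟨?_, ?_, ?_, ?_⟩
      · intro x hx
        simp only [St.put_r, St.set_r, Function.update_of_ne hx, h1 x hx]
      · intro j' hj'
        simp only [St.put_a, St.set_a, Function.update_of_ne hj', h2 j' hj']
      · intro x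
        simp only [St.put_a, St.set_a, St.set_r, Function.update_self]
        by_cases hx : x = k
        · subst hx; simp
        · rw [Function.update_of_ne hx, h3 x]
          by_cases hxk : x < k
          · rw [if_pos hxk, if_pos (by omega)]
          · rw [if_neg hxk, if_neg (by omega)]
      · simp only [St.put_pos, St.set_pos, h4]

theorem eq_val {p : ℕ} [Fact p.Prime] {x : ℕ} {z : ZMod p} (hx : x < p) (h : (x : ZMod p) = z) :
    x = z.val := by
  rw [← h, ZMod.val_cast_of_lt hx]

theorem one_sub_val {p : ℕ} [Fact p.Prime] (δ a : ZMod p) :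
    (1 + (p - δ.val * a.val % p)) % p = (1 - δ * a).val := by
  have hp : 0 < p := (Fact.out : p.Prime).pos
  have : NeZero p := ⟨hp.ne'⟩
  apply eq_val (Nat.mod_lt _ hp)
  rw [ZMod.natCast_mod, Nat.cast_add, Nat.cast_sub (Nat.mod_lt _ hp).le, ZMod.natCast_mod,
    Nat.cast_mul, ZMod.natCast_val, ZMod.natCast_val, ZMod.cast_id, ZMod.cast_id,
    ZMod.natCast_self, Nat.cast_one]
  ring

/-- Level `0`. -/
def cross0C : C :=
  .seq (.asg 41 (.mod (.add (.const 1) (.sub (.reg 1)
    (.mod (.mul (.ld 21 (.const 0)) (.ld 20 (.const 1))) (.reg 1)))) (.reg 1)))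
  (.ite (.const 0) (.reg 41)
    (.for_ 40 (.const 4) (.sto 20 (.reg 40)
      (.mod (.mul (.ld 20 (.reg 40)) (.ld 3 (.reg 41))) (.reg 1))))
    (.sto 21 (.const 0) (.const 0)))

theorem cross0_tri (𝔸 : Alg) (σ : ℕ) {env : Env} {cap p : ℕ} [Fact p.Prime] {s : St}
    (ND : (ℕ → ℕ → ZMod p) × (ℕ → ℕ → ZMod p)) (hB : Base 𝔸 p s)
    (hN : Holds (s.a 20) (2 * σ ^ 0) ND.1) (hD : Holds (s.a 21) (σ ^ 0) ND.2) (hp : p ≤ cap)
    (hcap : 4 ≤ cap) :
    Tri env cap cross0C s 11 (fun s' =>
      Holds (s'.a 20) (2 * σ ^ 0) (crossF σ 0 ND).1 ∧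
      Holds (s'.a 21) (σ ^ 0) (crossF σ 0 ND).2 ∧
      (∀ x, x ≠ 40 → x ≠ 41 → s'.r x = s.r x) ∧ (∀ j, j ≠ 20 → j ≠ 21 → s'.a j = s.a j) ∧
      s'.pos = s.pos) := by
  have hpp : 0 < p := (Fact.out : p.Prime).pos
  have hnz : NeZero p := ⟨hpp.ne'⟩
  obtain ⟨z, hz⟩ : ∃ z, z = 1 - ND.2 0 0 * ND.1 0 1 := ⟨_, rfl⟩
  rw [pow_zero, mul_one] at hN
  rw [pow_zero] at hD
  simp only [pow_zero, mul_one]
  have hval : (E.mod (.add (.const 1) (.sub (.reg 1)
      (.mod (.mul (.ld 21 (.const 0)) (.ld 20 (.const 1))) (.reg 1)))) (.reg 1)).eval env s =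
      z.val := by
    have h1 : s.a 21 0 = (ND.2 0 0).val := by
      have := hD 0 (by omega) 0 (by omega)
      simpa using this
    have h2 : s.a 20 1 = (ND.1 0 1).val := by
      have := hN 0 (by omega) 1 (by omega)
      simpa using this
    simp only [E.eval, hB.p_eq, h1, h2]
    rw [one_sub_val, hz]
  refine (Tri.seq (t := 1) (t' := 10) (Q := fun s' => s' = s.set 41 z.val) ?_ ?_).mono
    (by omega) (fun _ h => h)
  · apply Tri.asg
    · rw [hval]; exact (ZMod.val_lt z).le.trans hp
    · rw [hval]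
  rintro s1 rfl
  refine Tri.mono (t := 1 + 9) ?_ le_rfl (fun _ h => h)
  apply Tri.ite
  · intro h
    simp only [E.eval, St.set_r, Function.update_self] at h
    have hz0 : z ≠ 0 := by
      intro h0
      rw [h0, ZMod.val_zero] at h
      omega
    have hcr : crossF σ 0 ND = (fun a b => z⁻¹ * ND.1 a b, ND.2) := by
      simp only [crossF]
      rw [← hz, if_neg hz0]
    have hm := mapIn_tri (env := env) (cap := cap) (i := 40) (len := .const 4) (j := 20)
      (e := .mod (.mul (.ld 20 (.reg 40)) (.ld 3 (.reg 41))) (.reg 1)) (s := s.set 41 z.val)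
      (fun k => s.a 20 k * (z⁻¹).val % p) (by simpa only [E.eval] using hcap)
      (by
        intro k hk s' hk1 hr ha haj
        have h3 : s'.a 3 = s.a 3 := by rw [ha 3 (by omega), St.set_a]
        have h4 : s'.r 41 = z.val := by rw [hr 41 (by omega)]; simp
        have h5 : s'.r 1 = p := by rw [hr 1 (by omega)]; simp [hB.p_eq]
        simp only [E.eval, h3, h4, h5, hk1, haj, St.set_a, hB.inv z hz0])
      (by intro k _; exact (Nat.mod_lt _ hpp).le.trans hp)
    refine hm.mono (by simp only [E.eval]; omega) ?_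
    rintro s' ⟨h1, h2, h3, h4⟩
    rw [hcr]
    refine ⟨?_, ?_, ?_, ?_, ?_⟩
    · intro i hi j hj
      have hlt : i * 2 + j < (E.const 4).eval env (s.set 41 z.val) := by
        simp only [E.eval]; omega
      rw [h3, if_pos hlt, hN i hi j hj, mul_comm, ← ZMod.val_mul]
    · rw [h2 21 (by omega)]
      exact hD
    · intro x hx hx'
      rw [h1 x hx, St.set_r, Function.update_of_ne hx']
    · intro j hj hj'
      rw [h2 j hj, St.set_a]
    · rw [h4, St.set_pos]
  · intro h
    simp only [E.eval, St.set_r, Function.update_self, not_lt, Nat.le_zero] at h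
    have hz0 : z = 0 := (ZMod.val_eq_zero z).mp h
    have hcr : crossF σ 0 ND = (ND.1, fun _ _ => 0) := by
      simp only [crossF]
      rw [← hz, if_pos hz0]
    rw [hcr]
    refine Tri.mono (t := 1) (Tri.sto (Q := fun s' =>
      Holds (s'.a 20) 2 ND.1 ∧ Holds (s'.a 21) 1 (fun _ _ => (0 : ZMod p)) ∧
      (∀ x, x ≠ 40 → x ≠ 41 → s'.r x = s.r x) ∧ (∀ j, j ≠ 20 → j ≠ 21 → s'.a j = s.a j) ∧
      s'.pos = s.pos) ?_ ?_) (by omega) (fun _ h => h)
    · simp only [E.eval]; omega
    · simp only [E.eval]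
      refine ⟨?_, ?_, ?_, ?_, ?_⟩
      · simp only [St.put_a, St.set_a]
        rw [Function.update_of_ne (by omega)]
        exact hN
      · intro i hi j hj
        simp only [St.put_a, St.set_a, Function.update_self]
        have : i * 1 + j = 0 := by omega
        rw [this, Function.update_self, ZMod.val_zero]
      · intro x hx hx'
        simp only [St.put_r, St.set_r, Function.update_of_ne hx']
      · intro j hj hj'
        simp only [St.put_a, St.set_a, Function.update_of_ne hj']
      · simp only [St.put_pos, St.set_pos]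

end Vale.Agent.P305.MM.H559
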