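import Vale.Agent.P305.MM.Defs

set_option autoImplicit false

namespace Vale.Agent.P305.MM

open Finset

/-! ### Sizes -/

theorem Alg.sq_pow_le (𝔸 : Alg) (m : ℕ) : 𝔸.q ^ m * 𝔸.q ^ m ≤ 𝔸.R ^ m := by
  rw [← mul_pow, ← pow_two]
  exact Nat.pow_le_pow_left 𝔸.sq_le m

theorem Alg.four_le (𝔸 : Alg) : 4 ≤ 𝔸.R := by
  have := 𝔸.sq_le
  have h2 := 𝔸.two_le
  nlinarith

theorem Alg.sigma_pow_le (𝔸 : Alg) (κ l : ℕ) :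
    (𝔸.q ^ κ) ^ l * (𝔸.q ^ κ) ^ l ≤ 𝔸.R ^ (κ * l) := by
  rw [← pow_mul]
  exact 𝔸.sq_pow_le _

theorem Alg.cap_le (𝔸 : Alg) {κ l cap : ℕ} (h : 𝔸.R ^ (κ * (l + 1) + 2) ≤ cap) :
    𝔸.R ^ (κ * l + 2) ≤ cap :=
  (Nat.pow_le_pow_right (by have := 𝔸.four_le; omega) (by
    have : κ * l ≤ κ * (l + 1) := Nat.mul_le_mul_left _ (by omega)
    omega)).trans h

theorem Alg.cap_le' (𝔸 : Alg) {κ l cap : ℕ} (h : 𝔸.R ^ (κ * l + 2) ≤ cap) :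
    2 * (𝔸.q ^ κ) ^ l * (2 * (𝔸.q ^ κ) ^ l) ≤ cap := by
  refine le_trans ?_ h
  have h1 := 𝔸.sigma_pow_le κ l
  have h4 := 𝔸.four_le
  rw [pow_add]
  have h5 : 4 ≤ 𝔸.R ^ 2 := by nlinarith
  calc 2 * (𝔸.q ^ κ) ^ l * (2 * (𝔸.q ^ κ) ^ l) = ((𝔸.q ^ κ) ^ l * (𝔸.q ^ κ) ^ l) * 4 := by ring
    _ ≤ 𝔸.R ^ (κ * l) * 𝔸.R ^ 2 := Nat.mul_le_mul h1 h5

end Vale.Agent.P305.MM
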